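import Vale.Agent.P092.H793.Re.Defs

/-!
P092, project RE (helper793): the blocks, as literal statements (Mathlib part).
-/

set_option linter.all false

open Matrix Filter Topology

namespace Vale.Agent.P092.H793.Re

/-- diagonal data exist after an orthogonal change of basis -/
def ExDg : Prop :=
  ∀ {n : ℕ} {G : Type} [Group G] [TopologicalSpace G] (ρ : G →* SLn n), RS ρ →
    ∃ (ρ' : G →* SLn n) (h : Fin n → ℝ), RS ρ' ∧ Dg ρ' h

/-- simple roots exist -/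
def ExSr : Prop :=
  ∀ {n : ℕ} {G : Type} [Group G] [TopologicalSpace G] (ρ : G →* SLn n) (h : Fin n → ℝ), RS ρ →
    Dg ρ h → ∃ (r : ℕ) (p q : Fin r → Fin n) (w : Fin r → Fin n → ℝ) (E : Fin r → Mat n),
      Sr ρ h p q w E

/-- the Cartan decomposition -/
def Car : Prop :=
  ∀ {n : ℕ} {G : Type} [Group G] [TopologicalSpace G] (ρ : G →* SLn n) (h : Fin n → ℝ) {r : ℕ}
    (p q : Fin r → Fin n) (w : Fin r → Fin n → ℝ) (E : Fin r → Mat n), RS ρ → Dg ρ h →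
    Sr ρ h p q w E → ∀ g, ∃ (κ κ' : G) (x : Fin n → ℝ), Ort ρ κ ∧ Ort ρ κ' ∧ Dom ρ p q x ∧
      (ρ g).1 = (ρ κ).1 * diagonal (fun a => Real.exp (x a)) * (ρ κ').1

/-- the dominant element is determined up to a bounded error -/
def Bnd : Prop :=
  ∀ {n : ℕ} {G : Type} [Group G] [TopologicalSpace G] (ρ : G →* SLn n) (h : Fin n → ℝ) {r : ℕ}
    (p q : Fin r → Fin n) (w : Fin r → Fin n → ℝ) (E : Fin r → Mat n), RS ρ → Dg ρ h →
    Sr ρ h p q w E → ∀ C : ℝ, ∃ C' : ℝ, ∀ (g g' : G) (x y : Fin n → ℝ),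
      (∀ a b, |(ρ g).1 a b| ≤ C) → (∀ a b, |(ρ g').1 a b| ≤ C) → Dom ρ p q x → Dom ρ p q y →
      diagonal (fun a => Real.exp (y a)) =
        (ρ g).1 * diagonal (fun a => Real.exp (x a)) * (ρ g').1 → ∀ a, |x a - y a| ≤ C'

end Vale.Agent.P092.H793.Re
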