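import Vale.Agent.P092.H793.Re.L1
import Mathlib.Analysis.Calculus.Deriv.Slope

/-!
P092, project RE (helper793), [RE-L], part 2: the Lie algebra of a closed group of matrices.
-/

set_option linter.all false

open Matrix Filter Topology

namespace Vale.Agent.P092.H793.Re

attribute [local instance] Matrix.linftyOpNormedRing Matrix.linftyOpNormedAlgebra

section sets

variable {n : ℕ} {S : Set (Mat n)}

/-- all exponentials of multiples of `X` are in `S` -/
def LieOf (S : Set (Mat n)) (X : Mat n) : Prop := ∀ t : ℝ, NormedSpace.exp (t • X) ∈ S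

theorem continuous_exp : Continuous (NormedSpace.exp : Mat n → Mat n) :=
  NormedSpace.exp_continuous

theorem LieOf.smul {X : Mat n} (h : LieOf S X) (c : ℝ) : LieOf S (c • X) := by
  intro t
  rw [smul_smul]
  exact h _

theorem LieOf.closed (hS : IsClosed S) : IsClosed {X | LieOf S X} := by
  have : {X | LieOf S X} = ⋂ t : ℝ, {X : Mat n | NormedSpace.exp (t • X) ∈ S} := by
    ext X; simp [LieOf]
  rw [this]
  refine isClosed_iInter fun t => hS.preimage ?_
  exact continuous_exp.comp (continuous_const_smul t)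

theorem hasDerivAt_exp_mul (X Y : Mat n) :
    HasDerivAt (fun s : ℝ => NormedSpace.exp (s • X) * NormedSpace.exp (s • Y)) (X + Y) 0 := by
  have h1 := hasDerivAt_exp_smul_const (𝕂 := ℝ) X (0 : ℝ)
  have h2 := hasDerivAt_exp_smul_const (𝕂 := ℝ) Y (0 : ℝ)
  have h3 := h1.mul h2
  simp only [zero_smul, NormedSpace.exp_zero, one_mul, mul_one] at h3
  exact h3

theorem pow_mem_of_mul {x : Mat n} (h1 : (1 : Mat n) ∈ S)
    (hm : ∀ x ∈ S, ∀ y ∈ S, x * y ∈ S) (hx : x ∈ S) (m : ℕ) : x ^ m ∈ S := by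
  induction m with
  | zero => simpa using h1
  | succ m ih => rw [pow_succ]; exact hm _ ih _ hx

theorem LieOf.add (hS : IsClosed S) (h1 : (1 : Mat n) ∈ S)
    (hm : ∀ x ∈ S, ∀ y ∈ S, x * y ∈ S) {X Y : Mat n} (hX : LieOf S X) (hY : LieOf S Y) :
    LieOf S (X + Y) := by
  intro t
  rcases Nat.eq_zero_or_pos n with hn | hn
  · subst hn
    have : NormedSpace.exp (t • (X + Y)) = 1 := Subsingleton.elim _ _
    rw [this]; exact h1
  haveI : Nonempty (Fin n) := ⟨⟨0, hn⟩⟩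
  have hd := hasDerivAt_exp_mul (t • X) (t • Y)
  have hlim := tendsto_pow_exp (c := fun s : ℝ => NormedSpace.exp (s • (t • X)) *
    NormedSpace.exp (s • (t • Y))) (by simp) hd
  rw [← smul_add] at hlim
  refine hS.mem_of_tendsto hlim (Eventually.of_forall fun m => ?_)
  refine pow_mem_of_mul h1 hm (hm _ ?_ _ ?_) m
  · rw [smul_smul]; exact hX _
  · rw [smul_smul]; exact hY _

theorem exp_conj_eq (s : ℝ) (X Y : Mat n) :
    NormedSpace.exp (NormedSpace.exp (s • X) * Y * NormedSpace.exp (-(s • X))) =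
      NormedSpace.exp (s • X) * NormedSpace.exp Y * NormedSpace.exp (-(s • X)) := by
  rw [Matrix.exp_neg]
  exact Matrix.exp_conj _ _ (Matrix.isUnit_exp _)

theorem LieOf.conj_exp (hm : ∀ x ∈ S, ∀ y ∈ S, x * y ∈ S) {X Y : Mat n} (hX : LieOf S X)
    (hY : LieOf S Y) (s : ℝ) :
    LieOf S (NormedSpace.exp (s • X) * Y * NormedSpace.exp (-(s • X))) := by
  intro t
  have e : t • (NormedSpace.exp (s • X) * Y * NormedSpace.exp (-(s • X))) =
      NormedSpace.exp (s • X) * (t • Y) * NormedSpace.exp (-(s • X)) := by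
    simp only [Matrix.mul_smul, Matrix.smul_mul]
  rw [e, exp_conj_eq]
  refine hm _ (hm _ (hX s) _ (hY t)) _ ?_
  rw [← neg_smul]
  exact hX _

theorem hasDerivAt_conj (X Y : Mat n) :
    HasDerivAt (fun s : ℝ => NormedSpace.exp (s • X) * Y * NormedSpace.exp (-(s • X)))
      (X * Y - Y * X) 0 := by
  have h1 := hasDerivAt_exp_smul_const (𝕂 := ℝ) X (0 : ℝ)
  have h2 := hasDerivAt_exp_smul_const (𝕂 := ℝ) (-X) (0 : ℝ)
  have h3 := (h1.mul_const Y).mul h2
  simp only [zero_smul, NormedSpace.exp_zero, one_mul, mul_one] at h3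
  have e : (fun s : ℝ => NormedSpace.exp (s • X) * Y * NormedSpace.exp (-(s • X))) =
      ((fun y => NormedSpace.exp (y • X) * Y) * fun u => NormedSpace.exp (u • -X)) := by
    funext s
    simp only [Pi.mul_apply, smul_neg]
  rw [e]
  refine h3.congr_deriv ?_
  noncomm_ring

theorem LieOf.bracket (hS : IsClosed S) (h1 : (1 : Mat n) ∈ S)
    (hm : ∀ x ∈ S, ∀ y ∈ S, x * y ∈ S) {X Y : Mat n} (hX : LieOf S X) (hY : LieOf S Y) :
    LieOf S (X * Y - Y * X) := by
  have hd := (hasDerivAt_conj X Y).tendsto_slope_zero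
  simp only [zero_add, zero_smul, NormedSpace.exp_zero, one_mul, mul_one, neg_zero] at hd
  refine (LieOf.closed hS).mem_of_tendsto hd (Eventually.of_forall fun s => ?_)
  show LieOf S _
  refine LieOf.smul ?_ _
  rw [sub_eq_add_neg]
  refine LieOf.add hS h1 hm (LieOf.conj_exp hm hX hY s) ?_
  have := hY.smul (-1)
  rwa [neg_one_smul] at this

end sets

section grp

variable {n : ℕ} {G : Type} [Group G] [TopologicalSpace G] {ρ : G →* SLn n}

/-- the image in the matrices -/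
def im (ρ : G →* SLn n) : Set (Mat n) := Set.range fun g => (ρ g).1

theorem lie_iff {X : Mat n} : Lie ρ X ↔ LieOf (im ρ) X := Iff.rfl

theorem im_one : (1 : Mat n) ∈ im ρ := ⟨1, by simp⟩

theorem im_mul : ∀ x ∈ im ρ, ∀ y ∈ im ρ, x * y ∈ im ρ := by
  rintro _ ⟨g, rfl⟩ _ ⟨g', rfl⟩
  exact ⟨g * g', by simp⟩

theorem closedEmb_val : IsClosedEmbedding (fun g : SLn n => g.1) :=
  Matrix.SpecialLinearGroup.isClosedEmbedding_val

theorem emb_mat (he : IsClosedEmbedding ρ) : IsClosedEmbedding fun g : G => (ρ g).1 :=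
  closedEmb_val.comp he

theorem im_closed (he : IsClosedEmbedding ρ) : IsClosed (im ρ) := (emb_mat he).isClosed_range

theorem lie_zero : Lie ρ 0 := fun t => ⟨1, by simp⟩

theorem lie_smul {X : Mat n} (c : ℝ) (h : Lie ρ X) : Lie ρ (c • X) := LieOf.smul (S := im ρ) h c

theorem lie_neg {X : Mat n} (h : Lie ρ X) : Lie ρ (-X) := by
  have := lie_smul (-1) h
  rwa [neg_one_smul] at this

theorem lie_add (he : IsClosedEmbedding ρ) {X Y : Mat n} (hX : Lie ρ X) (hY : Lie ρ Y) :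
    Lie ρ (X + Y) := LieOf.add (im_closed he) im_one im_mul hX hY

theorem lie_sub (he : IsClosedEmbedding ρ) {X Y : Mat n} (hX : Lie ρ X) (hY : Lie ρ Y) :
    Lie ρ (X - Y) := by
  rw [sub_eq_add_neg]; exact lie_add he hX (lie_neg hY)

theorem lie_bracket (he : IsClosedEmbedding ρ) {X Y : Mat n} (hX : Lie ρ X) (hY : Lie ρ Y) :
    Lie ρ (X * Y - Y * X) := LieOf.bracket (im_closed he) im_one im_mul hX hY

theorem lie_closed (he : IsClosedEmbedding ρ) : IsClosed {X | Lie ρ X} :=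
  LieOf.closed (im_closed he)

theorem lie_transpose (ha : ∀ g, ∃ g', (ρ g').1 = (ρ g).1ᵀ) {X : Mat n} (hX : Lie ρ X) :
    Lie ρ Xᵀ := by
  intro t
  obtain ⟨g, hg⟩ := hX t
  obtain ⟨g', hg'⟩ := ha g
  refine ⟨g', ?_⟩
  rw [hg', hg, ← Matrix.exp_transpose, Matrix.transpose_smul]

theorem coe_inv_mul (g : G) : (ρ g⁻¹).1 * (ρ g).1 = 1 := by
  have := congrArg Subtype.val (show ρ g⁻¹ * ρ g = 1 by rw [← map_mul, inv_mul_cancel, map_one])
  rwa [Matrix.SpecialLinearGroup.coe_mul, Matrix.SpecialLinearGroup.coe_one] at this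

theorem coe_mul_inv (g : G) : (ρ g).1 * (ρ g⁻¹).1 = 1 := by
  have := congrArg Subtype.val (show ρ g * ρ g⁻¹ = 1 by rw [← map_mul, mul_inv_cancel, map_one])
  rwa [Matrix.SpecialLinearGroup.coe_mul, Matrix.SpecialLinearGroup.coe_one] at this

theorem isUnit_coe (g : G) : IsUnit (ρ g).1 :=
  ⟨⟨(ρ g).1, (ρ g⁻¹).1, coe_mul_inv g, coe_inv_mul g⟩, rfl⟩

theorem coe_inv (g : G) : (ρ g⁻¹).1 = ((ρ g).1)⁻¹ :=
  (Matrix.inv_eq_left_inv (coe_inv_mul g)).symm

theorem lie_conj (g : G) {X : Mat n} (hX : Lie ρ X) : Lie ρ ((ρ g).1 * X * (ρ g⁻¹).1) := by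
  intro t
  obtain ⟨h, hh⟩ := hX t
  refine ⟨g * h * g⁻¹, ?_⟩
  have e : t • ((ρ g).1 * X * (ρ g⁻¹).1) = (ρ g).1 * (t • X) * (ρ g⁻¹).1 := by
    simp only [Matrix.mul_smul, Matrix.smul_mul]
  rw [e, map_mul, map_mul, Matrix.SpecialLinearGroup.coe_mul, Matrix.SpecialLinearGroup.coe_mul,
    hh, coe_inv, Matrix.exp_conj _ _ (isUnit_coe g)]

theorem ort_inv {κ : G} (h : Ort ρ κ) : (ρ κ⁻¹).1 = (ρ κ).1ᵀ := by
  rw [coe_inv]
  exact Matrix.inv_eq_right_inv h

theorem lie_ort {κ : G} (h : Ort ρ κ) {X : Mat n} (hX : Lie ρ X) :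
    Lie ρ ((ρ κ).1 * X * (ρ κ).1ᵀ) := by
  rw [← ort_inv h]; exact lie_conj κ hX

theorem exp_mem {X : Mat n} (hX : Lie ρ X) : ∃ g, (ρ g).1 = NormedSpace.exp X := by
  obtain ⟨g, hg⟩ := hX 1
  exact ⟨g, by rw [hg, one_smul]⟩

/-- the Lie algebra as a real vector space -/
def lieS (he : IsClosedEmbedding ρ) : Submodule ℝ (Mat n) where
  carrier := {X | Lie ρ X}
  add_mem' := fun hX hY => lie_add he hX hY
  zero_mem' := lie_zero
  smul_mem' := fun c _ hX => lie_smul c hX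

theorem mem_lieS {he : IsClosedEmbedding ρ} {X : Mat n} : X ∈ lieS he ↔ Lie ρ X := Iff.rfl

theorem isCompact_ort (he : IsClosedEmbedding ρ) : IsCompact {κ : G | Ort ρ κ} := by
  have h1 : IsCompact {A : Mat n | A * Aᵀ = 1} := by
    have hcl : IsClosed {A : Mat n | A * Aᵀ = 1} := by
      refine isClosed_eq ?_ continuous_const
      fun_prop
    have hb : {A : Mat n | A * Aᵀ = 1} ⊆ Set.univ.pi fun _ => Set.univ.pi fun _ =>
        Set.Icc (-1 : ℝ) 1 := by
      intro A hA i _ j _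
      have hA' : A * Aᵀ = 1 := hA
      have h2 := congrFun (congrFun hA' i) i
      rw [Matrix.mul_apply, Matrix.one_apply_eq] at h2
      simp only [Matrix.transpose_apply] at h2
      have h3 : A i j * A i j ≤ 1 := by
        rw [← h2]
        exact Finset.single_le_sum (f := fun l => A i l * A i l)
          (fun l _ => mul_self_nonneg _) (Finset.mem_univ j)
      exact ⟨by nlinarith, by nlinarith⟩
    refine IsCompact.of_isClosed_subset ?_ hcl hb
    exact isCompact_univ_pi fun _ => isCompact_univ_pi fun _ => isCompact_Icc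
  exact (emb_mat he).isCompact_preimage h1

theorem ort_mul {κ κ' : G} (h : Ort ρ κ) (h' : Ort ρ κ') : Ort ρ (κ * κ') := by
  show (ρ (κ * κ')).1 * (ρ (κ * κ')).1ᵀ = 1
  rw [map_mul, Matrix.SpecialLinearGroup.coe_mul, Matrix.transpose_mul]
  calc (ρ κ).1 * (ρ κ').1 * ((ρ κ').1ᵀ * (ρ κ).1ᵀ)
      = (ρ κ).1 * ((ρ κ').1 * (ρ κ').1ᵀ) * (ρ κ).1ᵀ := by simp only [Matrix.mul_assoc]
    _ = 1 := by rw [show (ρ κ').1 * (ρ κ').1ᵀ = 1 from h', Matrix.mul_one]; exact h

theorem ort_symm {κ : G} (h : Ort ρ κ) : (ρ κ).1ᵀ * (ρ κ).1 = 1 := by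
  rw [← ort_inv h]; exact coe_inv_mul κ

theorem ort_inv' {κ : G} (h : Ort ρ κ) : Ort ρ κ⁻¹ := by
  show (ρ κ⁻¹).1 * (ρ κ⁻¹).1ᵀ = 1
  rw [ort_inv h, Matrix.transpose_transpose]
  exact ort_symm h

theorem ort_one : Ort ρ (1 : G) := by
  show (ρ 1).1 * (ρ 1).1ᵀ = 1
  simp

end grp

end Vale.Agent.P092.H793.Re
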