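import Vale.Agent.P092.H793.Re.L3
import Vale.Agent.P092.H793.Re.Blocks
import Vale.Agent.P092.H35.RePol
import Vale.Agent.P092.H736.ReLog
import Vale.Agent.P092.H720.Re.Sr

/-!
P092, project RE (helper793), [RE-L], final form: all facts on the Lie algebra of `RS ρ`, with the
blocks `ExSr` and `Car`.
-/

set_option linter.all false

open Matrix Filter Topology

namespace Vale.Agent.P092.H793.Re

variable {n : ℕ} {G : Type} [Group G] [TopologicalSpace G] {ρ : G →* SLn n}

/-- polar decomposition -/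
theorem polar (hρ : RS ρ) (g : G) : ∃ (κ : G) (X : Mat n), Ort ρ κ ∧ Xᵀ = X ∧ Lie ρ X ∧
    (ρ g).1 = (ρ κ).1 * NormedSpace.exp X := H35.RePol.polar hρ g

theorem pol (hρ : RS ρ) : ∃ X, Lie ρ X ∧ Xᵀ = X ∧ X ≠ 0 := pol_of hρ (polar hρ)

/-- `G` is generated by the exponentials -/
theorem gen (hρ : RS ρ) :
    Subgroup.closure {g | ∃ X, Lie ρ X ∧ (ρ g).1 = NormedSpace.exp X} = ⊤ := gen_of hρ (pol hρ)

/-- the centre of the Lie algebra vanishes -/
theorem cen (hρ : RS ρ) {X : Mat n} (hX : Lie ρ X) (hc : ∀ Y, Lie ρ Y → X * Y = Y * X) : X = 0 :=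
  cen_of hρ (gen hρ) hX hc

/-- central elements are orthogonal -/
theorem ort_center (hρ : RS ρ) {z : G} (hz : z ∈ Subgroup.center G) : Ort ρ z :=
  ort_of_center hρ (polar hρ) hz

theorem isClosed_center (hρ : RS ρ) : IsClosed (Subgroup.center G : Set G) := by
  haveI := topGroup hρ.emb
  haveI := t2 hρ.emb
  have : (Subgroup.center G : Set G) = ⋂ g : G, {z | g * z = z * g} := by
    ext z
    simp only [SetLike.mem_coe, Subgroup.mem_center_iff, Set.mem_iInter, Set.mem_setOf_eq]
  rw [this]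
  exact isClosed_iInter fun g => isClosed_eq (by fun_prop) (by fun_prop)

/-- the centre is finite -/
theorem finite_center (hρ : RS ρ) : Finite (Subgroup.center G) := by
  refine finite_center_of hρ (polar hρ) ?_
  have he : IsClosedEmbedding (ρ.comp (Subgroup.center G).subtype) :=
    hρ.emb.comp (isClosed_center hρ).isClosedEmbedding_subtypeVal
  obtain ⟨V, hV, h⟩ := H736.Re.log_nhds he (lieS he) (fun X => Iff.rfl) (U := Set.univ)
    Filter.univ_mem
  have hc : Continuous fun z : Subgroup.center G => (ρ z).1 := (emb_mat he).continuous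
  refine ⟨(fun z : Subgroup.center G => (ρ z).1) ⁻¹' V, hc.continuousAt.preimage_mem_nhds ?_,
    fun z hz => ?_⟩
  · have e : (ρ ((1 : Subgroup.center G) : G)).1 = 1 := by
      rw [Subgroup.coe_one, map_one]; rfl
    show V ∈ 𝓝 ((ρ ((1 : Subgroup.center G) : G)).1)
    rw [e]; exact hV
  · obtain ⟨X, -, hX, hz'⟩ := h z hz
    exact ⟨X, hX, hz'⟩

theorem lieOK (hρ : RS ρ) : H720.Re.LieOK ρ where
  zero := lie_zero
  add := fun _ _ hX hY => lie_add hρ.emb hX hY
  smul := fun c _ hX => lie_smul c hX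
  br := fun _ _ hX hY => lie_bracket hρ.emb hX hY
  tr := fun _ hX => lie_transpose hρ.adj hX
  cen := fun _ hX _ hc => cen hρ hX hc
  pol := pol hρ

/-- **[RE-R]** -/
theorem exSr : ExSr := H720.Re.exSr_of fun ρ hρ => lieOK hρ

/-- Hadamard multipliers -/
theorem had (hρ : RS ρ) {h : Fin n → ℝ} (hh : Lie ρ (diagonal h)) (φ : ℝ → ℝ) {X : Mat n}
    (hX : Lie ρ X) : Lie ρ (Matrix.of fun a b => φ (h a - h b) * X a b) := (lieOK hρ).had hh φ hX

end Vale.Agent.P092.H793.Re
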