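import Vale.Agent.P092.H793.Re.L
import Mathlib.Analysis.Matrix.Spectrum
import Mathlib.Analysis.Matrix.PosDef
import Mathlib.GroupTheory.Abelianization.Defs
import Mathlib.Analysis.SpecialFunctions.ExpDeriv
import Mathlib.Analysis.Calculus.Deriv.Linear

/-!
P092, project RE (helper793), [RE-L], part 3: perfectness, central elements, generation by
exponentials, polar decomposition.
-/

set_option linter.all false

open Matrix Filter Topology

namespace Vale.Agent.P092.H793.Re

attribute [local instance] Matrix.linftyOpNormedRing Matrix.linftyOpNormedAlgebra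

section spec

theorem spec {𝕜 : Type*} [RCLike 𝕜] {m : Type*} [Fintype m] [DecidableEq m] {A : Matrix m m 𝕜}
    (hA : A.IsHermitian) : ∃ (U : Matrix m m 𝕜), U * Uᴴ = 1 ∧ Uᴴ * U = 1 ∧
      A = U * diagonal (fun i => (hA.eigenvalues i : 𝕜)) * Uᴴ := by
  refine ⟨hA.eigenvectorUnitary.1, ?_, ?_, ?_⟩
  · exact (Matrix.mem_unitaryGroup_iff).1 hA.eigenvectorUnitary.2
  · exact (Matrix.mem_unitaryGroup_iff').1 hA.eigenvectorUnitary.2
  · have h := hA.spectral_theorem
    conv_lhs => rw [h]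
    rfl

theorem exp_conj_unit {𝕜 : Type*} [RCLike 𝕜] {m : Type*} [Fintype m] [DecidableEq m]
    {U : Matrix m m 𝕜} (h1 : U * Uᴴ = 1) (h2 : Uᴴ * U = 1) (D : Matrix m m 𝕜) :
    NormedSpace.exp (U * D * Uᴴ) = U * NormedSpace.exp D * Uᴴ := by
  have hu : IsUnit U := ⟨⟨U, Uᴴ, h1, h2⟩, rfl⟩
  have hi : Uᴴ = U⁻¹ := (Matrix.inv_eq_left_inv h2).symm
  rw [hi]
  exact Matrix.exp_conj U D hu

end spec

section perf

variable {G : Type} [Group G]

/-- nonabelian and simple modulo the centre implies perfect -/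
theorem perfect (nab : ∃ g h : G, g * h ≠ h * g)
    (simple : ∀ N : Subgroup G, N.Normal → N ≤ Subgroup.center G ∨ N = ⊤) :
    commutator G = ⊤ := by
  rcases simple (commutator G) inferInstance with h | h
  · exfalso
    obtain ⟨g, g', hg⟩ := nab
    have hc : ∀ a b : G, a * b * a⁻¹ * b⁻¹ ∈ Subgroup.center G := fun a b => h (by
      rw [commutator_def]
      exact Subgroup.commutator_mem_commutator (Subgroup.mem_top a) (Subgroup.mem_top b))
    have hN : (Subgroup.centralizer {g} : Subgroup G).Normal := by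
      refine ⟨fun y hy u => ?_⟩
      rw [Subgroup.mem_centralizer_singleton_iff] at hy ⊢
      have e : u * y * u⁻¹ = (u * y * u⁻¹ * y⁻¹) * y := by group
      have hz := Subgroup.mem_center_iff.1 (hc u y) g
      rw [e]
      calc (u * y * u⁻¹ * y⁻¹) * y * g = (u * y * u⁻¹ * y⁻¹) * (y * g) := by group
        _ = (u * y * u⁻¹ * y⁻¹) * (g * y) := by rw [hy]
        _ = ((u * y * u⁻¹ * y⁻¹) * g) * y := by group
        _ = (g * (u * y * u⁻¹ * y⁻¹)) * y := by rw [hz]
        _ = g * ((u * y * u⁻¹ * y⁻¹) * y) := by group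
    have hgc : g ∉ Subgroup.center G := fun hh => hg (Subgroup.mem_center_iff.1 hh g').symm
    rcases simple _ hN with h1 | h1
    · exact hgc (h1 (by rw [Subgroup.mem_centralizer_singleton_iff]))
    · have h2 : g' ∈ (Subgroup.centralizer {g} : Subgroup G) := by rw [h1]; trivial
      rw [Subgroup.mem_centralizer_singleton_iff] at h2
      exact hg h2.symm
  · exact h

theorem hom_triv (hp : commutator G = ⊤) {A : Type*} [CommGroup A] (f : G →* A) (g : G) :
    f g = 1 := by
  have h := Abelianization.commutator_subset_ker f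
  rw [hp] at h
  exact h (Subgroup.mem_top g)

end perf

section kill

variable {n : ℕ} {G : Type} [Group G] [TopologicalSpace G] {ρ : G →* SLn n}

/-- the complex matrix of `g` -/
def cx (A : Mat n) : Matrix (Fin n) (Fin n) ℂ := A.map (fun x => (x : ℂ))

theorem cx_mul (A B : Mat n) : cx (A * B) = cx A * cx B :=
  Matrix.map_mul (f := Complex.ofRealHom)

theorem cx_one : cx (1 : Mat n) = 1 := Matrix.map_one _ Complex.ofReal_zero Complex.ofReal_one

theorem cx_inj {A B : Mat n} (h : cx A = cx B) : A = B := by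
  ext i j
  have := congrFun (congrFun h i) j
  exact Complex.ofReal_injective this

/-- A Hermitian matrix which commutes with the group and has a one-parameter group in it vanishes. -/
theorem kill (hp : commutator G = ⊤) {H : Matrix (Fin n) (Fin n) ℂ} (hH : H.IsHermitian)
    (hc : ∀ g, H * cx (ρ g).1 = cx (ρ g).1 * H) {c : ℂ} (hc0 : c ≠ 0)
    (hexp : ∀ t : ℝ, ∃ g, cx (ρ g).1 = NormedSpace.exp (((t : ℂ) * c) • H)) : H = 0 := by
  obtain ⟨U, hU1, hU2, hU⟩ := spec hH
  obtain ⟨e, he⟩ : ∃ e : Fin n → ℝ, e = hH.eigenvalues := ⟨_, rfl⟩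
  rw [← he] at hU
  by_contra hne
  have hex : ∃ i, e i ≠ 0 := by
    by_contra hall
    push Not at hall
    apply hne
    rw [hU]
    have : (fun i => ((e i : ℝ) : ℂ)) = 0 := by
      funext i; rw [hall i]; simp
    have h2 : diagonal (fun i => ((e i : ℝ) : ℂ)) = 0 := by
      rw [this]; exact Matrix.diagonal_zero
    rw [show (fun i => ((e i : ℝ) : ℂ)) = fun i => (RCLike.ofReal (e i) : ℂ) from rfl] at h2
    rw [h2]; simp
  obtain ⟨i0, hi0⟩ := hex
  obtain ⟨ch, hch⟩ : ∃ ch : Fin n → ℂ, ch = fun i => if e i = e i0 then 1 else 0 := ⟨_, rfl⟩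
  obtain ⟨D, hD⟩ : ∃ D : Matrix (Fin n) (Fin n) ℂ, D = diagonal (fun i => ((e i : ℝ) : ℂ)) :=
    ⟨_, rfl⟩
  obtain ⟨Q, hQ⟩ : ∃ Q : Matrix (Fin n) (Fin n) ℂ, Q = diagonal ch := ⟨_, rfl⟩
  have hHD : H = U * D * Uᴴ := by rw [hU, hD]; rfl
  have hQQ : Q * Q = Q := by
    rw [hQ, Matrix.diagonal_mul_diagonal]
    congr 1
    funext i
    rw [hch]
    by_cases h : e i = e i0 <;> simp [h]
  -- the conjugated group commutes with `Q`
  have hcomm : ∀ g, (Uᴴ * cx (ρ g).1 * U) * Q = Q * (Uᴴ * cx (ρ g).1 * U) := by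
    intro g
    obtain ⟨A, hA⟩ : ∃ A, A = Uᴴ * cx (ρ g).1 * U := ⟨_, rfl⟩
    rw [← hA]
    have h1 : D * A = A * D := by
      have h2 := hc g
      rw [hHD] at h2
      calc D * A = (Uᴴ * U) * D * (Uᴴ * cx (ρ g).1 * U) := by rw [hU2, Matrix.one_mul, hA]
        _ = Uᴴ * (U * D * Uᴴ * cx (ρ g).1) * U := by simp only [Matrix.mul_assoc]
        _ = Uᴴ * (cx (ρ g).1 * (U * D * Uᴴ)) * U := by rw [h2]
        _ = (Uᴴ * cx (ρ g).1 * U) * D * (Uᴴ * U) := by simp only [Matrix.mul_assoc]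
        _ = A * D := by rw [hU2, Matrix.mul_one, hA]
    ext i j
    have h3 := congrFun (congrFun h1 i) j
    rw [hD, Matrix.diagonal_mul, Matrix.mul_diagonal] at h3
    rw [hQ, Matrix.diagonal_mul, Matrix.mul_diagonal, hch]
    simp only
    by_cases hA0 : A i j = 0
    · rw [hA0]; ring
    · have h4 : ((e i : ℝ) : ℂ) = e j := by
        have h5 : (((e i : ℝ) : ℂ) - e j) * A i j = 0 := by rw [sub_mul, h3]; ring
        rcases mul_eq_zero.1 h5 with h6 | h6
        · exact sub_eq_zero.1 h6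
        · exact absurd h6 hA0
      have h7 : e i = e j := Complex.ofReal_injective h4
      rw [h7]; ring
  -- the determinant character
  obtain ⟨φ, hφ⟩ : ∃ φ : G →* ℂ, ∀ g, φ g = (Q * (Uᴴ * cx (ρ g).1 * U) + (1 - Q)).det := by
    refine ⟨⟨⟨fun g => (Q * (Uᴴ * cx (ρ g).1 * U) + (1 - Q)).det, ?_⟩, ?_⟩, fun g => rfl⟩
    · have : (ρ (1 : G)).1 = 1 := by rw [map_one]; rfl
      simp only [this, cx_one, Matrix.mul_one, hU2]
      simp
    · intro g h
      simp only
      rw [← Matrix.det_mul]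
      congr 1
      obtain ⟨A, hA⟩ : ∃ A, A = Uᴴ * cx (ρ g).1 * U := ⟨_, rfl⟩
      obtain ⟨B, hB⟩ : ∃ B, B = Uᴴ * cx (ρ h).1 * U := ⟨_, rfl⟩
      have hAB : Uᴴ * cx (ρ (g * h)).1 * U = A * B := by
        rw [map_mul, Matrix.SpecialLinearGroup.coe_mul, cx_mul, hA, hB]
        calc Uᴴ * (cx (ρ g).1 * cx (ρ h).1) * U
            = Uᴴ * cx (ρ g).1 * 1 * cx (ρ h).1 * U := by simp only [Matrix.mul_assoc, Matrix.one_mul]
          _ = Uᴴ * cx (ρ g).1 * U * (Uᴴ * cx (ρ h).1 * U) := by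
            rw [← hU1]; simp only [Matrix.mul_assoc]
      rw [hAB, ← hA, ← hB]
      have c1 : A * Q = Q * A := by rw [hA]; exact hcomm g
      have e1 : (Q * A + (1 - Q)) * (Q * B + (1 - Q)) =
          Q * (A * Q) * B + Q * A - Q * (A * Q) + (Q * B - (Q * Q) * B) +
            (1 - Q - Q + Q * Q) := by noncomm_ring
      rw [e1, c1]
      have e2 : Q * (Q * A) = Q * A := by rw [← Matrix.mul_assoc, hQQ]
      rw [e2, hQQ]
      noncomm_ring
  have hφ1 : ∀ g, φ g = 1 := by
    intro g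
    have := hom_triv hp φ.toHomUnits g
    have h2 := congrArg Units.val this
    simpa using h2
  -- evaluation on the one-parameter group
  obtain ⟨m, hm⟩ : ∃ m : ℕ, m = (Finset.univ.filter fun i => e i = e i0).card := ⟨_, rfl⟩
  have hm0 : 0 < m := by
    rw [hm]
    exact Finset.card_pos.2 ⟨i0, by simp⟩
  have hev : ∀ t : ℝ, Complex.exp ((t : ℂ) * (c * e i0 * m)) = 1 := by
    intro t
    obtain ⟨g, hg⟩ := hexp t
    have h1 := hφ1 g
    rw [hφ, hg, hHD] at h1
    have h2 : ((t : ℂ) * c) • (U * D * Uᴴ) = U * (((t : ℂ) * c) • D) * Uᴴ := by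
      simp only [Matrix.mul_smul, Matrix.smul_mul]
    rw [h2, exp_conj_unit hU1 hU2] at h1
    have h3 : Uᴴ * (U * NormedSpace.exp (((t : ℂ) * c) • D) * Uᴴ) * U =
        NormedSpace.exp (((t : ℂ) * c) • D) := by
      calc Uᴴ * (U * NormedSpace.exp (((t : ℂ) * c) • D) * Uᴴ) * U
          = (Uᴴ * U) * NormedSpace.exp (((t : ℂ) * c) • D) * (Uᴴ * U) := by
            simp only [Matrix.mul_assoc]
        _ = _ := by rw [hU2, Matrix.one_mul, Matrix.mul_one]
    rw [h3] at h1
    have h4 : ((t : ℂ) * c) • D = diagonal (fun i => (t : ℂ) * c * e i) := by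
      rw [hD, ← Matrix.diagonal_smul]
      rfl
    rw [h4, Matrix.exp_diagonal, hQ, Matrix.diagonal_mul_diagonal, ← Matrix.diagonal_one,
      Matrix.diagonal_sub, Matrix.diagonal_add, Matrix.det_diagonal] at h1
    have h5 : ∀ i, ch i * (NormedSpace.exp fun i => (t : ℂ) * c * e i) i + (1 - ch i) =
        if e i = e i0 then Complex.exp ((t : ℂ) * c * e i0) else 1 := by
      intro i
      rw [Pi.coe_exp, hch]
      by_cases h : e i = e i0
      · simp only [h, if_true, Complex.exp_eq_exp_ℂ]; ring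
      · simp only [h, if_false]; ring
    rw [Finset.prod_congr rfl fun i _ => h5 i, Finset.prod_ite, Finset.prod_const_one, mul_one,
      Finset.prod_const, ← hm, ← Complex.exp_nat_mul] at h1
    rw [← h1]
    congr 1; ring
  have hz : c * e i0 * m = 0 := by
    have h1 : HasDerivAt (fun t : ℝ => Complex.exp ((t : ℂ) * (c * e i0 * m)))
        (Complex.exp (((0 : ℝ) : ℂ) * (c * e i0 * m)) * (c * e i0 * m)) 0 := by
      have h2 : HasDerivAt (fun t : ℝ => (t : ℂ) * (c * e i0 * m)) (1 * (c * e i0 * m)) 0 :=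
        (Complex.ofRealCLM.hasDerivAt (x := (0 : ℝ))).mul_const _
      rw [one_mul] at h2
      exact h2.cexp
    have h3 : (fun t : ℝ => Complex.exp ((t : ℂ) * (c * e i0 * m))) = fun _ => 1 :=
      funext hev
    rw [h3] at h1
    have h4 := h1.unique (hasDerivAt_const (0 : ℝ) (1 : ℂ))
    simpa using h4
  have h1 : (e i0 : ℂ) ≠ 0 := by exact_mod_cast hi0
  have h2 : (m : ℂ) ≠ 0 := by exact_mod_cast hm0.ne'
  exact (mul_ne_zero (mul_ne_zero hc0 h1) h2) hz

end kill

end Vale.Agent.P092.H793.Re
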