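import Vale.Agent.P092.H793.Re.L2

/-!
P092, project RE (helper793), [RE-L], part 4: generation by exponentials, central elements.
-/

set_option linter.all false

open Matrix Filter Topology

namespace Vale.Agent.P092.H793.Re

attribute [local instance] Matrix.linftyOpNormedRing Matrix.linftyOpNormedAlgebra

section top

variable {n : ℕ} {G : Type} [Group G] [TopologicalSpace G] {ρ : G →* SLn n}

theorem topGroup (he : IsClosedEmbedding ρ) : IsTopologicalGroup G :=
  he.isInducing.topologicalGroup ρ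

theorem t2 (he : IsClosedEmbedding ρ) : T2Space G := (emb_mat he).isEmbedding.t2Space

theorem locComp (he : IsClosedEmbedding ρ) : LocallyCompactSpace G := by
  haveI : LocallyCompactSpace (Mat n) := inferInstanceAs (LocallyCompactSpace (Fin n → Fin n → ℝ))
  exact (emb_mat he).locallyCompactSpace

theorem secCount (he : IsClosedEmbedding ρ) : SecondCountableTopology G := by
  haveI : SecondCountableTopology (Mat n) :=
    inferInstanceAs (SecondCountableTopology (Fin n → Fin n → ℝ))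
  exact (emb_mat he).isEmbedding.secondCountableTopology

theorem ρ_inj (he : IsClosedEmbedding ρ) {g h : G} (hgh : (ρ g).1 = (ρ h).1) : g = h :=
  (emb_mat he).injective hgh

end top

section cxexp

variable {n : ℕ}

theorem cx_exp (A : Mat n) : cx (NormedSpace.exp A) = NormedSpace.exp (cx A) := by
  have h := NormedSpace.map_exp (Complex.ofRealHom.mapMatrix (m := Fin n)) (by
    show Continuous fun A : Mat n => A.map (Complex.ofRealHom : ℝ → ℂ)
    exact continuous_id.matrix_map Complex.continuous_ofReal) A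
  exact h

theorem cx_smul (t : ℝ) (A : Mat n) : cx (t • A) = (t : ℂ) • cx A := by
  ext i j
  simp [cx]

theorem cx_conjTranspose (A : Mat n) : (cx A)ᴴ = cx Aᵀ := by
  ext i j
  simp [cx]

end cxexp

section kill

variable {n : ℕ} {G : Type} [Group G] [TopologicalSpace G] {ρ : G →* SLn n}

/-- `X` generates a central one-parameter group of `G`: then `X = 0`. -/
theorem kill_sym (hp : commutator G = ⊤) {X : Mat n} (hX : ∀ t : ℝ, ∃ g, (ρ g).1 =
    NormedSpace.exp (t • X)) (hs : Xᵀ = X) (hc : ∀ g, X * (ρ g).1 = (ρ g).1 * X) : X = 0 := by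
  have hH : (cx X).IsHermitian := by
    show (cx X)ᴴ = cx X
    rw [cx_conjTranspose, hs]
  have h := kill hp hH (ρ := ρ) (fun g => by rw [← cx_mul, hc, cx_mul]) (c := 1) one_ne_zero
    (fun t => by
      obtain ⟨g, hg⟩ := hX t
      exact ⟨g, by rw [hg, cx_exp, cx_smul, mul_one]⟩)
  apply cx_inj
  rw [h]
  ext i j; simp [cx]

theorem kill_skew (hp : commutator G = ⊤) {X : Mat n} (hX : ∀ t : ℝ, ∃ g, (ρ g).1 =
    NormedSpace.exp (t • X)) (hs : Xᵀ = -X) (hc : ∀ g, X * (ρ g).1 = (ρ g).1 * X) : X = 0 := by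
  have hH : (Complex.I • cx X).IsHermitian := by
    show (Complex.I • cx X)ᴴ = Complex.I • cx X
    rw [Matrix.conjTranspose_smul, cx_conjTranspose, hs]
    ext i j
    simp [cx]
  have h := kill hp hH (ρ := ρ) (fun g => by
    rw [Matrix.smul_mul, Matrix.mul_smul, ← cx_mul, hc, cx_mul]) (c := -Complex.I)
    (neg_ne_zero.2 Complex.I_ne_zero)
    (fun t => by
      obtain ⟨g, hg⟩ := hX t
      refine ⟨g, ?_⟩
      rw [hg, cx_exp, cx_smul, smul_smul]
      congr 2
      rw [mul_assoc, neg_mul, Complex.I_mul_I]; ring)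
  have h2 : cx X = 0 := by
    rcases smul_eq_zero.1 h with h3 | h3
    · exact absurd h3 Complex.I_ne_zero
    · exact h3
  apply cx_inj
  rw [h2]
  ext i j; simp [cx]

theorem comm_transpose (ha : ∀ g, ∃ g', (ρ g').1 = (ρ g).1ᵀ) {X : Mat n}
    (hc : ∀ g, X * (ρ g).1 = (ρ g).1 * X) (g : G) : Xᵀ * (ρ g).1 = (ρ g).1 * Xᵀ := by
  obtain ⟨g', hg'⟩ := ha g
  have h := congrArg Matrix.transpose (hc g')
  rw [Matrix.transpose_mul, Matrix.transpose_mul, hg', Matrix.transpose_transpose] at h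
  exact h.symm

/-- a central element of the Lie algebra vanishes -/
theorem kill_all (hρ : RS ρ) {X : Mat n} (hX : Lie ρ X)
    (hc : ∀ g, X * (ρ g).1 = (ρ g).1 * X) : X = 0 := by
  have hp := perfect hρ.nab hρ.simple
  have hXt := lie_transpose hρ.adj hX
  have hct := comm_transpose hρ.adj hc
  have h1 : X + Xᵀ = 0 := by
    refine kill_sym hp (lie_add hρ.emb hX hXt) ?_ fun g => ?_
    · rw [Matrix.transpose_add, Matrix.transpose_transpose, add_comm]
    · rw [Matrix.add_mul, Matrix.mul_add, hc, hct]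
  have h2 : X - Xᵀ = 0 := by
    refine kill_skew hp (lie_sub hρ.emb hX hXt) ?_ fun g => ?_
    · rw [Matrix.transpose_sub, Matrix.transpose_transpose, neg_sub]
    · rw [Matrix.sub_mul, Matrix.mul_sub, hc, hct]
  have h3 : (2 : ℝ) • X = (X + Xᵀ) + (X - Xᵀ) := by rw [two_smul]; abel
  rw [h1, h2, add_zero] at h3
  rcases smul_eq_zero.1 h3 with h4 | h4
  · norm_num at h4
  · exact h4

theorem comm_of_exp {X A : Mat n}
    (h : ∀ t : ℝ, NormedSpace.exp (t • X) * A = A * NormedSpace.exp (t • X)) : X * A = A * X := by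
  have h1 := (hasDerivAt_exp_smul_const (𝕂 := ℝ) X (0 : ℝ)).mul_const A
  have h2 := (hasDerivAt_exp_smul_const (𝕂 := ℝ) X (0 : ℝ)).const_mul A
  simp only [zero_smul, NormedSpace.exp_zero, one_mul] at h1 h2
  have h3 := h2.congr_of_eventuallyEq (f₁ := fun y : ℝ => NormedSpace.exp (y • X) * A)
    (Eventually.of_forall fun t => h t)
  exact h1.unique h3

theorem pol_of (hρ : RS ρ) (hpol : ∀ g, ∃ κ X, Ort ρ κ ∧ Xᵀ = X ∧ Lie ρ X ∧
    (ρ g).1 = (ρ κ).1 * NormedSpace.exp X) : ∃ X, Lie ρ X ∧ Xᵀ = X ∧ X ≠ 0 := by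
  by_contra hne
  push Not at hne
  apply hρ.nc
  have h1 : (Set.univ : Set G) = {κ : G | Ort ρ κ} := by
    ext g
    simp only [Set.mem_univ, Set.mem_setOf_eq, true_iff]
    obtain ⟨κ, X, hκ, hs, hX, hg⟩ := hpol g
    have h0 := hne X hX hs
    rw [h0, NormedSpace.exp_zero, Matrix.mul_one] at hg
    have : g = κ := ρ_inj hρ.emb hg
    rw [this]; exact hκ
  exact ⟨by rw [h1]; exact isCompact_ort hρ.emb⟩

/-- `G` is generated by the exponentials -/
theorem gen_of (hρ : RS ρ) (hpol : ∃ X, Lie ρ X ∧ Xᵀ = X ∧ X ≠ 0) :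
    Subgroup.closure {g | ∃ X, Lie ρ X ∧ (ρ g).1 = NormedSpace.exp X} = ⊤ := by
  have hN : (Subgroup.closure {g | ∃ X, Lie ρ X ∧ (ρ g).1 = NormedSpace.exp X}).Normal := by
    refine ⟨fun x hx u => ?_⟩
    induction hx using Subgroup.closure_induction with
    | mem x hx =>
      obtain ⟨X, hX, hx⟩ := hx
      refine Subgroup.subset_closure ⟨(ρ u).1 * X * (ρ u⁻¹).1, lie_conj u hX, ?_⟩
      rw [map_mul, map_mul, Matrix.SpecialLinearGroup.coe_mul, Matrix.SpecialLinearGroup.coe_mul,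
        hx, coe_inv, Matrix.exp_conj _ _ (isUnit_coe u)]
    | one => rw [mul_one, mul_inv_cancel]; exact Subgroup.one_mem _
    | mul x y _ _ hx hy =>
      have : u * (x * y) * u⁻¹ = (u * x * u⁻¹) * (u * y * u⁻¹) := by group
      rw [this]; exact Subgroup.mul_mem _ hx hy
    | inv x _ hx =>
      have : u * x⁻¹ * u⁻¹ = (u * x * u⁻¹)⁻¹ := by group
      rw [this]; exact Subgroup.inv_mem _ hx
  rcases hρ.simple _ hN with h | h
  · exfalso
    obtain ⟨X, hX, hs, hX0⟩ := hpol
    apply hX0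
    refine kill_all hρ hX fun g => ?_
    refine comm_of_exp fun t => ?_
    obtain ⟨x, hx⟩ := hX t
    have h1 : x ∈ Subgroup.center G := h (Subgroup.subset_closure ⟨t • X, lie_smul t hX, hx⟩)
    have h2 := Subgroup.mem_center_iff.1 h1 g
    have h3 := congrArg (fun z => (ρ z).1) h2
    simp only [map_mul, Matrix.SpecialLinearGroup.coe_mul] at h3
    rw [← hx]; exact h3.symm
  · exact h

theorem comm_of_lie (hgen : Subgroup.closure {g | ∃ X, Lie ρ X ∧ (ρ g).1 = NormedSpace.exp X} = ⊤)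
    {X : Mat n} (hc : ∀ Y, Lie ρ Y → X * Y = Y * X) (g : G) : X * (ρ g).1 = (ρ g).1 * X := by
  have hg : g ∈ Subgroup.closure {g | ∃ X, Lie ρ X ∧ (ρ g).1 = NormedSpace.exp X} := by
    rw [hgen]; trivial
  induction hg using Subgroup.closure_induction with
  | mem x hx =>
    obtain ⟨Y, hY, hx⟩ := hx
    rw [hx]
    have h : Commute X Y := hc Y hY
    exact h.exp_right.eq
  | one => rw [map_one]; show X * 1 = 1 * X; rw [Matrix.mul_one, Matrix.one_mul]
  | mul x y _ _ hx hy =>
    rw [map_mul, Matrix.SpecialLinearGroup.coe_mul, ← Matrix.mul_assoc, hx, Matrix.mul_assoc, hy,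
      ← Matrix.mul_assoc]
  | inv x _ hx =>
    calc X * (ρ x⁻¹).1 = ((ρ x⁻¹).1 * (ρ x).1) * X * (ρ x⁻¹).1 := by
          rw [coe_inv_mul, Matrix.one_mul]
      _ = (ρ x⁻¹).1 * (X * (ρ x).1) * (ρ x⁻¹).1 := by rw [hx]; simp only [Matrix.mul_assoc]
      _ = (ρ x⁻¹).1 * X * ((ρ x).1 * (ρ x⁻¹).1) := by simp only [Matrix.mul_assoc]
      _ = (ρ x⁻¹).1 * X := by rw [coe_mul_inv, Matrix.mul_one]

/-- an element of the Lie algebra which commutes with the Lie algebra vanishes -/
theorem cen_of (hρ : RS ρ)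
    (hgen : Subgroup.closure {g | ∃ X, Lie ρ X ∧ (ρ g).1 = NormedSpace.exp X} = ⊤) {X : Mat n}
    (hX : Lie ρ X) (hc : ∀ Y, Lie ρ Y → X * Y = Y * X) : X = 0 :=
  kill_all hρ hX (comm_of_lie hgen hc)

theorem comm_exp_sym {X A : Mat n} (hs : Xᵀ = X)
    (h : NormedSpace.exp X * A = A * NormedSpace.exp X) : X * A = A * X := by
  have hH : X.IsHermitian := by
    show Xᴴ = X
    rw [Matrix.conjTranspose_eq_transpose_of_trivial, hs]
  obtain ⟨U, hU1, hU2, hU⟩ := spec hH
  obtain ⟨e, he⟩ : ∃ e : Fin n → ℝ, e = hH.eigenvalues := ⟨_, rfl⟩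
  rw [← he] at hU
  have hU' : X = U * diagonal e * Uᴴ := hU
  have hexp : NormedSpace.exp X = U * diagonal (fun i => Real.exp (e i)) * Uᴴ := by
    rw [hU', exp_conj_unit hU1 hU2, Matrix.exp_diagonal]
    congr 3
    funext i
    rw [Pi.coe_exp, Real.exp_eq_exp_ℝ]
  obtain ⟨B, hB⟩ : ∃ B, B = Uᴴ * A * U := ⟨_, rfl⟩
  have hA : A = U * B * Uᴴ := by
    rw [hB]
    calc A = (U * Uᴴ) * A * (U * Uᴴ) := by rw [hU1, Matrix.one_mul, Matrix.mul_one]
      _ = _ := by simp only [Matrix.mul_assoc]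
  have key : ∀ f : Fin n → ℝ, (U * diagonal f * Uᴴ) * A = U * (diagonal f * B) * Uᴴ := by
    intro f
    rw [hA]
    calc U * diagonal f * Uᴴ * (U * B * Uᴴ) = U * diagonal f * (Uᴴ * U) * B * Uᴴ := by
          simp only [Matrix.mul_assoc]
      _ = _ := by rw [hU2, Matrix.mul_one]; simp only [Matrix.mul_assoc]
  have key' : ∀ f : Fin n → ℝ, A * (U * diagonal f * Uᴴ) = U * (B * diagonal f) * Uᴴ := by
    intro f
    rw [hA]
    calc U * B * Uᴴ * (U * diagonal f * Uᴴ) = U * B * (Uᴴ * U) * diagonal f * Uᴴ := by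
          simp only [Matrix.mul_assoc]
      _ = _ := by rw [hU2, Matrix.mul_one]; simp only [Matrix.mul_assoc]
  have h1 : diagonal (fun i => Real.exp (e i)) * B = B * diagonal (fun i => Real.exp (e i)) := by
    rw [hexp, key, key'] at h
    have h2 := congrArg (fun M => Uᴴ * M * U) h
    have h3 : ∀ M : Mat n, Uᴴ * (U * M * Uᴴ) * U = M := by
      intro M
      calc Uᴴ * (U * M * Uᴴ) * U = (Uᴴ * U) * M * (Uᴴ * U) := by simp only [Matrix.mul_assoc]
        _ = M := by rw [hU2, Matrix.one_mul, Matrix.mul_one]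
    rwa [h3, h3] at h2
  have h4 : diagonal e * B = B * diagonal e := by
    ext i j
    have h5 := congrFun (congrFun h1 i) j
    rw [Matrix.diagonal_mul, Matrix.mul_diagonal] at h5 ⊢
    by_cases hB0 : B i j = 0
    · rw [hB0]; ring
    · have h6 : Real.exp (e i) = Real.exp (e j) := by
        have h7 : (Real.exp (e i) - Real.exp (e j)) * B i j = 0 := by linarith
        rcases mul_eq_zero.1 h7 with h8 | h8
        · linarith
        · exact absurd h8 hB0
      rw [Real.exp_injective h6]; ring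
  rw [hU', key, key', h4]

/-- central elements are orthogonal -/
theorem ort_of_center (hρ : RS ρ) (hpol : ∀ g, ∃ κ X, Ort ρ κ ∧ Xᵀ = X ∧ Lie ρ X ∧
    (ρ g).1 = (ρ κ).1 * NormedSpace.exp X) {z : G} (hz : z ∈ Subgroup.center G) : Ort ρ z := by
  obtain ⟨κ, X, hκ, hs, hX, hg⟩ := hpol z
  have hzc : ∀ g, (ρ z).1 * (ρ g).1 = (ρ g).1 * (ρ z).1 := by
    intro g
    have h2 := Subgroup.mem_center_iff.1 hz g
    have h3 := congrArg (fun z => (ρ z).1) h2
    simp only [map_mul, Matrix.SpecialLinearGroup.coe_mul] at h3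
    exact h3.symm
  have hzt := comm_transpose hρ.adj hzc
  have h1 : (ρ z).1ᵀ * (ρ z).1 = NormedSpace.exp ((2 : ℝ) • X) := by
    rw [hg, Matrix.transpose_mul, ← Matrix.exp_transpose, hs]
    calc NormedSpace.exp X * (ρ κ).1ᵀ * ((ρ κ).1 * NormedSpace.exp X)
        = NormedSpace.exp X * ((ρ κ).1ᵀ * (ρ κ).1) * NormedSpace.exp X := by
          simp only [Matrix.mul_assoc]
      _ = NormedSpace.exp X * NormedSpace.exp X := by rw [ort_symm hκ, Matrix.mul_one]
      _ = NormedSpace.exp ((2 : ℝ) • X) := by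
        rw [two_smul, Matrix.exp_add_of_commute _ _ (Commute.refl X)]
  have h2 : (2 : ℝ) • X = 0 := by
    refine kill_all hρ (lie_smul 2 hX) fun g => ?_
    refine comm_exp_sym (by rw [Matrix.transpose_smul, hs]) ?_
    rw [← h1, Matrix.mul_assoc, hzc, ← Matrix.mul_assoc, hzt, Matrix.mul_assoc]
  have h3 : X = 0 := by
    rcases smul_eq_zero.1 h2 with h4 | h4
    · norm_num at h4
    · exact h4
  rw [h3, NormedSpace.exp_zero, Matrix.mul_one] at hg
  rw [ρ_inj hρ.emb hg]; exact hκ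

/-- the centre is finite, given the closed subgroup theorem for it -/
theorem finite_center_of (hρ : RS ρ) (hpol : ∀ g, ∃ κ X, Ort ρ κ ∧ Xᵀ = X ∧ Lie ρ X ∧
    (ρ g).1 = (ρ κ).1 * NormedSpace.exp X)
    (hlog : ∃ U ∈ 𝓝 (1 : Subgroup.center G), ∀ z ∈ U, ∃ X,
      Lie (ρ.comp (Subgroup.center G).subtype) X ∧ (ρ z).1 = NormedSpace.exp X) :
    Finite (Subgroup.center G) := by
  haveI := topGroup hρ.emb
  haveI := t2 hρ.emb
  have hcl : IsClosed (Subgroup.center G : Set G) := by
    have : (Subgroup.center G : Set G) = ⋂ g : G, {z | g * z = z * g} := by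
      ext z
      simp only [SetLike.mem_coe, Subgroup.mem_center_iff, Set.mem_iInter, Set.mem_setOf_eq]
    rw [this]
    exact isClosed_iInter fun g => isClosed_eq (by fun_prop) (by fun_prop)
  have hcomp : IsCompact (Subgroup.center G : Set G) :=
    (isCompact_ort hρ.emb).of_isClosed_subset hcl fun z hz => ort_of_center hρ hpol hz
  obtain ⟨U, hU, hU'⟩ := hlog
  have h1 : U ⊆ {1} := by
    intro z hz
    obtain ⟨X, hX, hzX⟩ := hU' z hz
    have hX' : Lie ρ X := fun t => by
      obtain ⟨x, hx⟩ := hX t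
      exact ⟨x.1, hx⟩
    have h0 : X = 0 := by
      refine kill_all hρ hX' fun g => comm_of_exp fun t => ?_
      obtain ⟨x, hx⟩ := hX t
      have h2 := Subgroup.mem_center_iff.1 x.2 g
      have h3 := congrArg (fun z => (ρ z).1) h2
      simp only [map_mul, Matrix.SpecialLinearGroup.coe_mul] at h3
      rw [← hx]; exact h3.symm
    rw [h0, NormedSpace.exp_zero] at hzX
    have : (z : G) = 1 := ρ_inj hρ.emb (by rw [hzX, map_one]; rfl)
    exact Subtype.ext this
  have hone : IsOpen ({1} : Set (Subgroup.center G)) := by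
    rw [isOpen_singleton_iff_nhds_eq_pure]
    refine le_antisymm ?_ (pure_le_nhds _)
    rw [le_pure_iff]
    exact mem_of_superset hU h1
  haveI : DiscreteTopology (Subgroup.center G) := discreteTopology_of_isOpen_singleton_one hone
  haveI : CompactSpace (Subgroup.center G) := isCompact_iff_compactSpace.1 hcomp
  exact finite_of_compact_of_discrete

end kill

end Vale.Agent.P092.H793.Re
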