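import Mathlib.Analysis.Normed.Algebra.MatrixExponential
import Mathlib.LinearAlgebra.Matrix.PosDef
import Mathlib.Topology.Instances.Matrix
import Mathlib.Topology.Algebra.Group.Matrix

/-!
P092, project RE (helper793): all noncompact connected simple real linear groups as factors.
Definitions: self-adjoint realisations, the Lie algebra, diagonal data, simple roots.
-/

set_option linter.all false

open Matrix Filter Topology

namespace Vale.Agent.P092.H793.Re

/-- real square matrices -/
abbrev Mat (n : ℕ) := Matrix (Fin n) (Fin n) ℝ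

/-- the special linear group -/
abbrev SLn (n : ℕ) := SpecialLinearGroup (Fin n) ℝ

variable {n : ℕ} {G : Type} [Group G] [TopologicalSpace G]

/-- `ρ` identifies the topological group `G` with a closed, connected, noncompact, self-adjoint
subgroup of `SL_n(ℝ)`, which contains the square roots of its positive definite elements and is
nonabelian and simple modulo its centre. -/
structure RS (ρ : G →* SLn n) : Prop where
  emb : IsClosedEmbedding ρ
  conn : PreconnectedSpace G
  adj : ∀ g, ∃ g', (ρ g').1 = (ρ g).1ᵀ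
  sqrt : ∀ h : SLn n, h.1.PosDef → (∃ g, ρ g = h * h) → ∃ g, ρ g = h
  nc : ¬ CompactSpace G
  nab : ∃ g h : G, g * h ≠ h * g
  simple : ∀ N : Subgroup G, N.Normal → N ≤ Subgroup.center G ∨ N = ⊤

/-- the Lie algebra of the closed group `G` -/
def Lie (ρ : G →* SLn n) (X : Mat n) : Prop :=
  ∀ t : ℝ, ∃ g, (ρ g).1 = NormedSpace.exp (t • X)

/-- `κ` is orthogonal -/
def Ort (ρ : G →* SLn n) (κ : G) : Prop := (ρ κ).1 * (ρ κ).1ᵀ = 1

/-- diagonal data: `diag(h)` is a generic diagonal element of the Lie algebra, and the symmetric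
elements of the Lie algebra which commute with it are diagonal. -/
structure Dg (ρ : G →* SLn n) (h : Fin n → ℝ) : Prop where
  lie : Lie ρ (diagonal h)
  anti : Antitone h
  cent : ∀ X : Mat n, Lie ρ X → Xᵀ = X → X * diagonal h = diagonal h * X →
    ∃ x : Fin n → ℝ, X = diagonal x
  gen : ∀ a b c d, h a - h b = h c - h d → ∀ x : Fin n → ℝ, Lie ρ (diagonal x) →
    x a - x b = x c - x d

/-- Simple roots: `α_j(x) = x (p j) - x (q j)`; `w j` is the dual basis; `E j` are root vectors. -/
structure Sr (ρ : G →* SLn n) (h : Fin n → ℝ) {r : ℕ} (p q : Fin r → Fin n)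
    (w : Fin r → Fin n → ℝ) (E : Fin r → Mat n) : Prop where
  pos : 0 < r
  hpq : ∀ j, h (q j) < h (p j)
  wl : ∀ j, Lie ρ (diagonal (w j))
  dual : ∀ i j, w j (p i) - w j (q i) = if i = j then 1 else 0
  span : ∀ x : Fin n → ℝ, Lie ρ (diagonal x) → x = ∑ j, (x (p j) - x (q j)) • w j
  root : ∀ X : Mat n, Lie ρ X → ∀ a b, X a b ≠ 0 → h b < h a → ∃ m : Fin r → ℕ,
    ∀ x : Fin n → ℝ, Lie ρ (diagonal x) → x a - x b = ∑ j, (m j : ℝ) * (x (p j) - x (q j))
  El : ∀ j, Lie ρ (E j)
  En : ∀ j, E j ≠ 0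
  Ew : ∀ j (x : Fin n → ℝ), Lie ρ (diagonal x) →
    diagonal x * E j - E j * diagonal x = (x (p j) - x (q j)) • E j
  Eh : ∀ j, ∃ y : Fin n → ℝ, E j * (E j)ᵀ - (E j)ᵀ * E j = diagonal y ∧ y (p j) - y (q j) = 2

/-- dominant elements -/
def Dom (ρ : G →* SLn n) {r : ℕ} (p q : Fin r → Fin n) (x : Fin n → ℝ) : Prop :=
  Lie ρ (diagonal x) ∧ ∀ j, 0 ≤ x (p j) - x (q j)

end Vale.Agent.P092.H793.Re
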