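import Vale.Agent.P092.H793.Re.Defs
import Mathlib.Analysis.SpecialFunctions.Exponential
import Mathlib.Analysis.Matrix.Normed
import Mathlib.Analysis.Calculus.Deriv.Add
import Mathlib.Analysis.Calculus.Deriv.Mul

/-!
P092, project RE (helper793), [RE-L], part 1: the Lie algebra of a closed semigroup of matrices is a
Lie algebra (product formula).
-/

set_option linter.all false

open Matrix Filter Topology

namespace Vale.Agent.P092.H793.Re

section banach

variable {A : Type*} [NormedRing A] [NormOneClass A] [NormedAlgebra ℝ A] [CompleteSpace A]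

theorem norm_pow_sub_pow {a b : A} {M : ℝ} (hM : 1 ≤ M) (ha : ‖a‖ ≤ M) (hb : ‖b‖ ≤ M) (m : ℕ) :
    ‖a ^ m - b ^ m‖ ≤ m * M ^ m * ‖a - b‖ := by
  induction m with
  | zero => simp
  | succ m ih =>
    have e : a ^ (m + 1) - b ^ (m + 1) = a * (a ^ m - b ^ m) + (a - b) * b ^ m := by
      rw [pow_succ' a, pow_succ' b]; noncomm_ring
    have hM0 : 0 ≤ M := by linarith
    rw [e]
    calc ‖a * (a ^ m - b ^ m) + (a - b) * b ^ m‖
        ≤ ‖a‖ * ‖a ^ m - b ^ m‖ + ‖a - b‖ * ‖b ^ m‖ :=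
          (norm_add_le _ _).trans (add_le_add (norm_mul_le _ _) (norm_mul_le _ _))
      _ ≤ M * (m * M ^ m * ‖a - b‖) + ‖a - b‖ * M ^ m := by
          gcongr
          exact (norm_pow_le _ _).trans (pow_le_pow_left₀ (norm_nonneg _) hb m)
      _ ≤ ((m : ℝ) + 1) * M ^ (m + 1) * ‖a - b‖ := by
          have h1 : M ^ m ≤ M ^ (m + 1) := pow_le_pow_right₀ hM (Nat.le_succ m)
          have h2 : ‖a - b‖ * M ^ m ≤ ‖a - b‖ * M ^ (m + 1) :=
            mul_le_mul_of_nonneg_left h1 (norm_nonneg _)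
          have h3 : M * (m * M ^ m * ‖a - b‖) = m * M ^ (m + 1) * ‖a - b‖ := by ring
          rw [h3]; nlinarith
      _ = ((m + 1 : ℕ) : ℝ) * M ^ (m + 1) * ‖a - b‖ := by push_cast; ring

/-- The product formula: if `c(0) = 1` and `c'(0) = Z`, then `c(1/m)^m → exp(Z)`. -/
theorem tendsto_pow_exp {c : ℝ → A} {Z : A} (h0 : c 0 = 1) (hc : HasDerivAt c Z 0) :
    Tendsto (fun m : ℕ => c ((m : ℝ)⁻¹) ^ m) atTop (𝓝 (NormedSpace.exp Z)) := by
  have he : HasDerivAt (fun t : ℝ => NormedSpace.exp (t • Z)) Z 0 := by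
    have := hasDerivAt_exp_smul_const (𝕂 := ℝ) Z (0 : ℝ)
    simpa using this
  have hd : HasDerivAt (fun t : ℝ => c t - NormedSpace.exp (t • Z)) 0 0 := by
    have h := HasDerivAt.sub hc he
    rw [sub_self] at h
    exact h
  have hinv : Tendsto (fun m : ℕ => ((m : ℝ))⁻¹) atTop (𝓝 0) := tendsto_inv_atTop_nhds_zero_nat
  have hd0 := hd.isLittleO
  simp only [sub_zero, zero_smul, NormedSpace.exp_zero, h0, sub_self, smul_zero] at hd0
  -- bound of both sides
  obtain ⟨L, hL⟩ : ∃ L : ℝ, L = ‖Z‖ + 1 := ⟨_, rfl⟩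
  have hb : ∀ {c : ℝ → A}, c 0 = 1 → HasDerivAt c Z 0 →
      ∀ᶠ t : ℝ in 𝓝[>] 0, ‖c t‖ ≤ Real.exp (L * t) := by
    intro c h0 hc
    have h1 := hc.isLittleO
    rw [Asymptotics.isLittleO_iff] at h1
    have h2 := (h1 (c := 1) one_pos).filter_mono (nhdsWithin_le_nhds (s := Set.Ioi 0))
    filter_upwards [h2, self_mem_nhdsWithin] with t ht htp
    have htp' : 0 < t := htp
    simp only [sub_zero, h0] at ht
    have h3 : ‖c t‖ ≤ ‖c t - 1 - t • Z‖ + ‖(1 : A) + t • Z‖ := by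
      have : c t = (c t - 1 - t • Z) + (1 + t • Z) := by abel
      calc ‖c t‖ = ‖(c t - 1 - t • Z) + (1 + t • Z)‖ := by rw [← this]
        _ ≤ _ := norm_add_le _ _
    have h4 : ‖(1 : A) + t • Z‖ ≤ 1 + t * ‖Z‖ := by
      refine (norm_add_le _ _).trans ?_
      rw [norm_one, norm_smul, Real.norm_of_nonneg htp'.le]
    have h5 : ‖t‖ = t := Real.norm_of_nonneg htp'.le
    rw [h5] at ht
    have h6 : ‖c t‖ ≤ 1 + L * t := by rw [hL]; nlinarith
    exact h6.trans (by have := Real.add_one_le_exp (L * t); linarith)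
  have h0' : (fun t : ℝ => NormedSpace.exp (t • Z)) 0 = 1 := by simp
  have hev := (hb h0 hc).and (hb h0' he)
  have hinv' : Tendsto (fun m : ℕ => ((m : ℝ))⁻¹) atTop (𝓝[>] 0) := by
    refine tendsto_nhdsWithin_iff.2 ⟨hinv, ?_⟩
    filter_upwards [eventually_gt_atTop (0 : ℕ)] with m hm
    exact inv_pos.2 (by exact_mod_cast hm : (0 : ℝ) < m)
  have hev' := hinv'.eventually hev
  rw [tendsto_iff_norm_sub_tendsto_zero]
  have hlim : Tendsto (fun m : ℕ => Real.exp L * (‖c ((m : ℝ)⁻¹) -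
      NormedSpace.exp (((m : ℝ)⁻¹) • Z)‖ / ‖((m : ℝ)⁻¹)‖)) atTop (𝓝 0) := by
    have h2 : Tendsto (fun t : ℝ => ‖c t - NormedSpace.exp (t • Z)‖ / ‖t‖) (𝓝 0) (𝓝 0) :=
      hd0.norm_norm.tendsto_div_nhds_zero
    have h3 := (h2.comp hinv).const_mul (Real.exp L)
    rw [mul_zero] at h3
    exact h3
  refine squeeze_zero' (Eventually.of_forall fun _ => norm_nonneg _) ?_ hlim
  filter_upwards [hev', eventually_gt_atTop 0] with m hm hm0
  have hm0' : (0 : ℝ) < m := by exact_mod_cast hm0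
  have hpow : NormedSpace.exp Z = NormedSpace.exp (((m : ℝ)⁻¹) • Z) ^ m := by
    letI : NormedAlgebra ℚ A := NormedAlgebra.restrictScalars ℚ ℝ A
    rw [← NormedSpace.exp_nsmul]
    congr 1
    rw [← Nat.cast_smul_eq_nsmul ℝ, smul_smul, mul_inv_cancel₀ hm0'.ne', one_smul]
  rw [hpow]
  have hM : 1 ≤ Real.exp (L * (m : ℝ)⁻¹) := by
    apply Real.one_le_exp
    rw [hL]; positivity
  refine (norm_pow_sub_pow hM hm.1 hm.2 m).trans (le_of_eq ?_)
  rw [← Real.exp_nat_mul]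
  have : (m : ℝ) * (L * (m : ℝ)⁻¹) = L := by field_simp
  rw [this, norm_inv, Real.norm_of_nonneg hm0'.le]
  field_simp

end banach

end Vale.Agent.P092.H793.Re
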